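import Mathlib

namespace Vale.Agent.Results.P160.PairBound

open Finset

/-- The symmetric `n × n` sign matrix determined by a choice of sign for every unordered pair
`{i, j}` (with `i = j` allowed): entry `(i, j)` is `1` if `w s(i, j)` is true and `-1` otherwise. -/
def signMat {n : ℕ} (w : Sym2 (Fin n) → Bool) : Matrix (Fin n) (Fin n) ℤ :=
  Matrix.of fun i j => if w s(i, j) then 1 else -1

/-- `q n`: the probability that the random symmetric sign matrix is singular, i.e. the proportion
of sign choices `w` (one independent uniform sign per unordered pair) with `det (signMat w) = 0`. -/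
noncomputable def q (n : ℕ) : ℚ :=
  ((Finset.univ.filter fun w : Sym2 (Fin n) → Bool => (signMat w).det = 0).card : ℚ) /
    (Fintype.card (Sym2 (Fin n) → Bool) : ℚ)

section general

variable {X : Type*} [Fintype X] [DecidableEq X]

theorem card_le_of_determined (E : Finset (X → Bool)) (K : Finset X)
    (h : ∀ w ∈ E, ∀ w' ∈ E, (∀ x ∈ K, w x = w' x) → w = w') : E.card ≤ 2 ^ K.card := by
  have h1 : E.card ≤ (Finset.univ : Finset (K → Bool)).card := by
    apply Finset.card_le_card_of_injOn (fun w => fun x : K => w x.1)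
    · intro w _
      exact Finset.mem_univ _
    · intro w hw w' hw' hww'
      apply h w hw w' hw'
      intro x hx
      exact congrFun hww' ⟨x, hx⟩
  simpa using h1

theorem le_card_of_extension (E : Finset (X → Bool)) (K : Finset X)
    (ext : (X → Bool) → (X → Bool)) (h1 : ∀ w, ext w ∈ E) (h2 : ∀ w, ∀ x ∈ K, ext w x = w x) :
    2 ^ K.card ≤ E.card := by
  have h3 : (Finset.univ : Finset (K → Bool)).card ≤ E.card := by
    apply Finset.card_le_card_of_injOn
      (fun f => ext (fun x => if hx : x ∈ K then f ⟨x, hx⟩ else false))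
    · intro f _
      exact h1 _
    · intro f _ g _ hfg
      funext x
      have := congrFun hfg x.1
      simp only [] at this
      rw [h2 _ x.1 x.2, h2 _ x.1 x.2] at this
      simpa using this
  simpa using h3

end general

theorem bonferroni {Ω ι : Type*} [DecidableEq Ω] (I : Finset ι) (E : ι → Finset Ω) :
    3 * ∑ a ∈ I, (E a).card ≤
      2 * (I.biUnion E).card + ∑ a ∈ I, ∑ b ∈ I, (E a ∩ E b).card := by
  classical
  set U := I.biUnion E with hU
  have hsub : ∀ a ∈ I, E a ⊆ U := fun a ha => Finset.subset_biUnion_of_mem E ha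
  have e1 : ∀ a ∈ I, (E a).card = ∑ ω ∈ U, if ω ∈ E a then 1 else 0 := by
    intro a ha
    rw [← Finset.card_filter]
    congr 1
    ext ω
    simp only [Finset.mem_filter]
    constructor
    · intro h
      exact ⟨hsub a ha h, h⟩
    · intro h
      exact h.2
  have e2 : ∀ a ∈ I, ∀ b ∈ I, (E a ∩ E b).card =
      ∑ ω ∈ U, (if ω ∈ E a then 1 else 0) * (if ω ∈ E b then 1 else 0) := by
    intro a ha b hb
    have : ∀ ω, ((if ω ∈ E a then 1 else 0) * (if ω ∈ E b then 1 else 0) : ℕ) =
        if ω ∈ E a ∩ E b then 1 else 0 := by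
      intro ω
      by_cases h1 : ω ∈ E a <;> by_cases h2 : ω ∈ E b <;> simp [h1, h2]
    simp only [this]
    rw [← Finset.card_filter]
    congr 1
    ext ω
    simp only [Finset.mem_filter, Finset.mem_inter]
    constructor
    · intro h
      exact ⟨hsub a ha h.1, h⟩
    · intro h
      exact h.2
  have s1 : ∑ a ∈ I, (E a).card = ∑ ω ∈ U, ∑ a ∈ I, if ω ∈ E a then 1 else 0 := by
    rw [Finset.sum_comm]
    exact Finset.sum_congr rfl e1
  have s2 : ∑ a ∈ I, ∑ b ∈ I, (E a ∩ E b).card =
      ∑ ω ∈ U, (∑ a ∈ I, if ω ∈ E a then 1 else 0) * (∑ a ∈ I, if ω ∈ E a then 1 else 0) := by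
    have : ∑ a ∈ I, ∑ b ∈ I, (E a ∩ E b).card =
        ∑ a ∈ I, ∑ b ∈ I, ∑ ω ∈ U, (if ω ∈ E a then 1 else 0) * (if ω ∈ E b then 1 else 0) :=
      Finset.sum_congr rfl fun a ha => Finset.sum_congr rfl fun b hb => e2 a ha b hb
    rw [this]
    have : ∀ a ∈ I, ∑ b ∈ I, ∑ ω ∈ U, (if ω ∈ E a then 1 else 0) * (if ω ∈ E b then 1 else 0) =
        ∑ ω ∈ U, ∑ b ∈ I, ((if ω ∈ E a then 1 else 0) * (if ω ∈ E b then 1 else 0) : ℕ) :=
      fun a _ => Finset.sum_comm
    rw [Finset.sum_congr rfl this, Finset.sum_comm]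
    apply Finset.sum_congr rfl
    intro ω _
    rw [Finset.sum_mul_sum]
  have s3 : 2 * U.card = ∑ ω ∈ U, 2 := by
    rw [Finset.sum_const, smul_eq_mul, mul_comm]
  rw [s1, s2, s3, Finset.mul_sum, ← Finset.sum_add_distrib]
  apply Finset.sum_le_sum
  intro ω hω
  have hm : 1 ≤ ∑ a ∈ I, if ω ∈ E a then 1 else 0 := by
    rw [hU, Finset.mem_biUnion] at hω
    obtain ⟨a, ha, hωa⟩ := hω
    calc 1 = if ω ∈ E a then 1 else 0 := by simp [hωa]
      _ ≤ ∑ a ∈ I, if ω ∈ E a then 1 else 0 :=
        Finset.single_le_sum (f := fun a => if ω ∈ E a then 1 else 0) (fun _ _ => Nat.zero_le _) ha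
  generalize (∑ a ∈ I, if ω ∈ E a then 1 else 0) = m at hm
  rcases Nat.lt_or_ge m 3 with h | h
  · interval_cases m <;> simp
  · nlinarith


section events

variable {n : ℕ}

/-- The event that row `i` equals `±` row `j` (sign `+` if `c = false`, sign `-` if `c = true`). -/
def ev (i j : Fin n) (c : Bool) : Finset (Sym2 (Fin n) → Bool) :=
  Finset.univ.filter fun w => ∀ l, w s(i, l) = xor (w s(j, l)) c

theorem mem_ev {i j : Fin n} {c : Bool} {w : Sym2 (Fin n) → Bool} :
    w ∈ ev i j c ↔ ∀ l, w s(i, l) = xor (w s(j, l)) c := by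
  simp [ev]

theorem ev_symm (i j : Fin n) (c : Bool) : ev i j c = ev j i c := by
  ext w
  simp only [mem_ev]
  constructor <;> intro h l <;> rw [h l] <;> simp

theorem det_eq_zero_of_mem_ev {i j : Fin n} (hij : i ≠ j) {c : Bool}
    {w : Sym2 (Fin n) → Bool} (hw : w ∈ ev i j c) : (signMat w).det = 0 := by
  rw [mem_ev] at hw
  cases c with
  | false =>
    apply Matrix.det_zero_of_row_eq hij
    funext l
    simp [signMat, hw l]
  | true =>
    rw [← Matrix.det_updateRow_add_self (signMat w) hij]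
    apply Matrix.det_eq_zero_of_row_eq_zero i
    intro l
    simp only [Matrix.updateRow_self, Pi.add_apply, signMat, Matrix.of_apply, hw l]
    cases w s(j, l) <;> simp

/-- unordered pairs not containing `i` -/
def Kset (i : Fin n) : Finset (Sym2 (Fin n)) := Finset.univ.filter fun x => i ∉ x

/-- unordered pairs containing neither `i` nor `l` -/
def Kset2 (i l : Fin n) : Finset (Sym2 (Fin n)) := Finset.univ.filter fun x => i ∉ x ∧ l ∉ x

def Aset (i : Fin n) : Finset (Sym2 (Fin n)) := Finset.univ.image fun b => s(i, b)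

theorem mem_Aset {i : Fin n} {x : Sym2 (Fin n)} : x ∈ Aset i ↔ i ∈ x := by
  simp only [Aset, Finset.mem_image, Finset.mem_univ, true_and, Sym2.mem_iff_exists]
  constructor
  · rintro ⟨b, rfl⟩
    exact ⟨b, rfl⟩
  · rintro ⟨b, rfl⟩
    exact ⟨b, rfl⟩

theorem card_Aset (i : Fin n) : (Aset i).card = n := by
  have h : Function.Injective (fun b : Fin n => s(i, b)) := (Sym2.mkEmbedding i).injective
  rw [Aset, Finset.card_image_of_injective _ h]
  simp

theorem card_Kset (i : Fin n) : (Kset i).card + n = Fintype.card (Sym2 (Fin n)) := by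
  have h := Finset.card_filter_add_card_filter_not
    (s := (Finset.univ : Finset (Sym2 (Fin n)))) (fun x => i ∉ x)
  have h2 : (Finset.univ.filter fun x : Sym2 (Fin n) => ¬ i ∉ x) = Aset i := by
    ext x
    simp [mem_Aset]
  rw [h2, card_Aset] at h
  simpa [Kset] using h

theorem card_Kset2 {i l : Fin n} (hil : i ≠ l) :
    (Kset2 i l).card + 2 * n = Fintype.card (Sym2 (Fin n)) + 1 := by
  have h := Finset.card_filter_add_card_filter_not
    (s := (Finset.univ : Finset (Sym2 (Fin n)))) (fun x => i ∉ x ∧ l ∉ x)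
  have h2 : (Finset.univ.filter fun x : Sym2 (Fin n) => ¬ (i ∉ x ∧ l ∉ x)) = Aset i ∪ Aset l := by
    ext x
    simp only [Finset.mem_filter, Finset.mem_univ, true_and, Finset.mem_union, mem_Aset]
    tauto
  have h3 : Aset i ∩ Aset l = {s(i, l)} := by
    ext x
    simp only [Finset.mem_inter, mem_Aset, Finset.mem_singleton]
    exact Sym2.mem_and_mem_iff hil
  have h4 := Finset.card_union_add_card_inter (Aset i) (Aset l)
  rw [h3, card_Aset, card_Aset, Finset.card_singleton] at h4
  rw [h2] at h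
  have h5 : (Kset2 i l).card + (Aset i ∪ Aset l).card = Fintype.card (Sym2 (Fin n)) := by
    simpa [Kset2] using h
  omega

theorem le_card_ev {i j : Fin n} (hij : i ≠ j) (c : Bool) :
    2 ^ (Kset i).card ≤ (ev i j c).card := by
  apply le_card_of_extension (ev i j c) (Kset i)
    (fun w => Sym2.lift ⟨fun a b =>
      if a = i then (if b = i then w s(j, j) else xor (w s(j, b)) c)
      else if b = i then xor (w s(j, a)) c else w s(a, b), by
        intro a b
        by_cases ha : a = i <;> by_cases hb : b = i <;> simp [ha, hb, Sym2.eq_swap]⟩)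
  · intro w
    rw [mem_ev]
    intro l
    have hji : j ≠ i := fun h => hij h.symm
    by_cases hl : l = i <;> simp [Sym2.lift_mk, hl, hji]
  · intro w x
    induction x using Sym2.ind with
    | _ a b =>
      intro hx
      simp only [Kset, Finset.mem_filter, Finset.mem_univ, true_and, Sym2.mem_iff, not_or] at hx
      have ha : a ≠ i := fun h => hx.1 h.symm
      have hb : b ≠ i := fun h => hx.2 h.symm
      simp [Sym2.lift_mk, ha, hb]

theorem card_ev_inter_le {i j k l : Fin n} (hij : i ≠ j) (hlk : l ≠ k) (hli : l ≠ i) (hlj : l ≠ j)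
    (c c' : Bool) : (ev i j c ∩ ev l k c').card ≤ 2 ^ (Kset2 i l).card := by
  apply card_le_of_determined
  intro w hw w' hw' h
  rw [Finset.mem_inter, mem_ev, mem_ev] at hw hw'
  obtain ⟨hw1, hw2⟩ := hw
  obtain ⟨hw1', hw2'⟩ := hw'
  have hA : ∀ a b, a ≠ i → a ≠ l → b ≠ i → b ≠ l → w s(a, b) = w' s(a, b) := by
    intro a b h1 h2 h3 h4
    apply h
    simp only [Kset2, Finset.mem_filter, Finset.mem_univ, true_and, Sym2.mem_iff, not_or]
    exact ⟨⟨fun e => h1 e.symm, fun e => h3 e.symm⟩, ⟨fun e => h2 e.symm, fun e => h4 e.symm⟩⟩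
  have hji : j ≠ i := fun e => hij e.symm
  have hjl : j ≠ l := fun e => hlj e.symm
  have hkl : k ≠ l := fun e => hlk e.symm
  have hi : ∀ b, b ≠ i → b ≠ l → w s(i, b) = w' s(i, b) := by
    intro b h1 h2
    rw [hw1 b, hw1' b, hA j b hji hjl h1 h2]
  have hl : ∀ b, b ≠ i → b ≠ l → w s(l, b) = w' s(l, b) := by
    intro b h1 h2
    rw [hw2 b, hw2' b]
    by_cases hk : k = i
    · subst hk
      rw [hi b h1 h2]
    · rw [hA k b hk hkl h1 h2]
  have hii : w s(i, i) = w' s(i, i) := by
    rw [hw1 i, hw1' i, Sym2.eq_swap (a := j), hi j hji hjl]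
  have hil : w s(i, l) = w' s(i, l) := by
    rw [hw1 l, hw1' l, Sym2.eq_swap (a := j), hl j hji hjl]
  have hll : w s(l, l) = w' s(l, l) := by
    rw [hw2 l, hw2' l, Sym2.eq_swap (a := k)]
    by_cases hk : k = i
    · subst hk
      rw [Sym2.eq_swap (a := l), hil]
    · rw [hl k hk hkl]
  funext x
  induction x using Sym2.ind with
  | _ a b =>
    by_cases ha : a = i
    · subst ha
      by_cases hb : b = a
      · subst hb
        exact hii
      · by_cases hb' : b = l
        · subst hb'
          exact hil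
        · exact hi b hb hb'
    · by_cases ha' : a = l
      · subst ha'
        by_cases hb : b = i
        · subst hb
          rw [Sym2.eq_swap]
          exact hil
        · by_cases hb' : b = a
          · subst hb'
            exact hll
          · exact hl b hb hb'
      · by_cases hb : b = i
        · subst hb
          rw [Sym2.eq_swap]
          exact hi a ha ha'
        · by_cases hb' : b = l
          · subst hb'
            rw [Sym2.eq_swap]
            exact hl a ha ha'
          · exact hA a b ha ha' hb hb'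

theorem ev_inter_flip_eq_empty (i j : Fin n) (c : Bool) : ev i j c ∩ ev i j (!c) = ∅ := by
  ext w
  simp only [Finset.mem_inter, mem_ev, Finset.notMem_empty, iff_false, not_and]
  intro h1 h2
  have := (h1 i).symm.trans (h2 i)
  cases c <;> cases w s(j, i) <;> simp at this

end events


section final

/-- ordered index pairs `i < j` -/
def pairs (n : ℕ) : Finset (Fin n × Fin n) := Finset.univ.filter fun p => p.1 < p.2

theorem card_pairs (n : ℕ) : (pairs n).card * 2 = n * (n - 1) := by
  have h : (pairs n).card = ∑ i : Fin n, (n - 1 - (i : ℕ)) := by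
    rw [pairs, Finset.card_filter, ← Finset.univ_product_univ, Finset.sum_product]
    apply Finset.sum_congr rfl
    intro i _
    rw [← Finset.card_filter, ← Fin.card_Ioi]
    congr 1
    ext j
    simp
  rw [h, Fin.sum_univ_eq_sum_range (fun k => n - 1 - k) n, Finset.sum_range_reflect (fun k => k) n,
    Finset.sum_range_id_mul_two]

/-- index set of the events: `((i, j), c)` with `i < j` -/
def idx (n : ℕ) : Finset ((Fin n × Fin n) × Bool) := pairs n ×ˢ Finset.univ

theorem card_idx (n : ℕ) : (idx n).card = n * (n - 1) := by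
  rw [idx, Finset.card_product, Finset.card_univ, Fintype.card_bool, card_pairs]

/-- the event attached to an index -/
def evI {n : ℕ} (a : (Fin n × Fin n) × Bool) : Finset (Sym2 (Fin n) → Bool) := ev a.1.1 a.1.2 a.2

theorem mem_idx {n : ℕ} {a : (Fin n × Fin n) × Bool} : a ∈ idx n ↔ a.1.1 < a.1.2 := by
  simp [idx, pairs]

theorem main_count (n : ℕ) :
    2 * (n * (n - 1)) * 2 ^ (Fintype.card (Sym2 (Fin n)) - n) ≤
      2 * (Finset.univ.filter fun w : Sym2 (Fin n) → Bool => (signMat w).det = 0).card +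
        (n * (n - 1)) * (n * (n - 1) - 2) * 2 ^ (Fintype.card (Sym2 (Fin n)) + 1 - 2 * n) := by
  classical
  set T := Fintype.card (Sym2 (Fin n)) with hT
  set N := n * (n - 1) with hN
  set S := (Finset.univ.filter fun w : Sym2 (Fin n) → Bool => (signMat w).det = 0) with hS
  have hU : ((idx n).biUnion evI).card ≤ S.card := by
    apply Finset.card_le_card
    intro w hw
    rw [Finset.mem_biUnion] at hw
    obtain ⟨a, ha, hwa⟩ := hw
    rw [hS, Finset.mem_filter]
    exact ⟨Finset.mem_univ _, det_eq_zero_of_mem_ev (ne_of_lt (mem_idx.1 ha)) hwa⟩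
  have hK1 : ∀ i : Fin n, (Kset i).card = T - n := by
    intro i
    have := card_Kset i
    omega
  have hK2 : ∀ i l : Fin n, i ≠ l → (Kset2 i l).card = T + 1 - 2 * n := by
    intro i l hil
    have := card_Kset2 hil
    omega
  have hlow : ∀ a ∈ idx n, 2 ^ (T - n) ≤ (evI a).card := by
    intro a ha
    have := le_card_ev (ne_of_lt (mem_idx.1 ha)) a.2
    rw [hK1] at this
    exact this
  have hpair : ∀ a ∈ idx n, ∀ b ∈ idx n, b.1 ≠ a.1 →
      (evI a ∩ evI b).card ≤ 2 ^ (T + 1 - 2 * n) := by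
    rintro ⟨⟨i, j⟩, c⟩ ha ⟨⟨k, l⟩, c'⟩ hb hne
    rw [mem_idx] at ha hb
    simp only at ha hb hne
    simp only [evI]
    have hij : i ≠ j := ne_of_lt ha
    have hkl : k ≠ l := ne_of_lt hb
    by_cases hl : l ≠ i ∧ l ≠ j
    · rw [ev_symm k l c']
      have := card_ev_inter_le hij (fun e => hkl e.symm) hl.1 hl.2 c c'
      rwa [hK2 i l (fun e => hl.1 e.symm)] at this
    · have hki : k ≠ i := by
        intro e
        subst e
        by_cases h1 : l = k
        · exact hkl h1.symm
        · have h2 : l = j := by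
            by_contra h2
            exact hl ⟨h1, h2⟩
          subst h2
          exact hne rfl
      have hkj : k ≠ j := by
        intro e
        subst e
        by_cases h1 : l = i
        · subst h1
          exact absurd ha (not_lt.2 (le_of_lt hb))
        · have h2 : l = k := by
            by_contra h2
            exact hl ⟨h1, h2⟩
          exact hkl h2.symm
      have := card_ev_inter_le hij hkl hki hkj c c'
      rwa [hK2 i k (fun e => hki e.symm)] at this
  have hcard : (idx n).card = N := card_idx n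
  have hinner : ∀ a ∈ idx n, ∑ b ∈ idx n, (evI a ∩ evI b).card ≤
      (evI a).card + (N - 2) * 2 ^ (T + 1 - 2 * n) := by
    intro a ha
    have ha' : ((a.1, !a.2) : (Fin n × Fin n) × Bool) ∈ (idx n).erase a := by
      rw [Finset.mem_erase]
      refine ⟨?_, ?_⟩
      · intro e
        have := congrArg Prod.snd e
        simp at this
      · rw [mem_idx]
        exact (mem_idx (a := a)).1 ha
    rw [← Finset.add_sum_erase (idx n) _ ha, ← Finset.add_sum_erase ((idx n).erase a) _ ha']
    have e1 : (evI a ∩ evI a).card = (evI a).card := by rw [Finset.inter_self]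
    have e2 : (evI a ∩ evI ((a.1, !a.2) : (Fin n × Fin n) × Bool)).card = 0 := by
      simp only [evI]
      rw [ev_inter_flip_eq_empty, Finset.card_empty]
    have e3 : ∑ b ∈ ((idx n).erase a).erase (a.1, !a.2), (evI a ∩ evI b).card ≤
        (N - 2) * 2 ^ (T + 1 - 2 * n) := by
      have hc : (((idx n).erase a).erase (a.1, !a.2)).card = N - 2 := by
        rw [Finset.card_erase_of_mem ha', Finset.card_erase_of_mem ha, hcard]
        omega
      rw [← hc, ← smul_eq_mul]
      apply Finset.sum_le_card_nsmul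
      intro b hb
      rw [Finset.mem_erase, Finset.mem_erase] at hb
      obtain ⟨hb1, hb2, hb3⟩ := hb
      apply hpair a ha b hb3
      intro e
      rcases Bool.eq_or_eq_not b.2 a.2 with h | h
      · exact hb2 (Prod.ext e h)
      · exact hb1 (Prod.ext e h)
    rw [e1, e2]
    omega
  have hbon := bonferroni (idx n) evI
  have hsum1 : ∑ a ∈ idx n, ∑ b ∈ idx n, (evI a ∩ evI b).card ≤
      ∑ a ∈ idx n, (evI a).card + N * ((N - 2) * 2 ^ (T + 1 - 2 * n)) := by
    calc ∑ a ∈ idx n, ∑ b ∈ idx n, (evI a ∩ evI b).card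
        ≤ ∑ a ∈ idx n, ((evI a).card + (N - 2) * 2 ^ (T + 1 - 2 * n)) := Finset.sum_le_sum hinner
      _ = ∑ a ∈ idx n, (evI a).card + N * ((N - 2) * 2 ^ (T + 1 - 2 * n)) := by
        rw [Finset.sum_add_distrib, Finset.sum_const, hcard, smul_eq_mul]
  have hsum2 : N * 2 ^ (T - n) ≤ ∑ a ∈ idx n, (evI a).card := by
    calc N * 2 ^ (T - n) = ∑ _a ∈ idx n, 2 ^ (T - n) := by
          rw [Finset.sum_const, hcard, smul_eq_mul]
      _ ≤ ∑ a ∈ idx n, (evI a).card := Finset.sum_le_sum hlow
  have h3 : N * ((N - 2) * 2 ^ (T + 1 - 2 * n)) = N * (N - 2) * 2 ^ (T + 1 - 2 * n) := by ring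
  have h4 : 2 * N * 2 ^ (T - n) = 2 * (N * 2 ^ (T - n)) := by ring
  rw [h4]
  omega



/-- For every `n ≥ 2`, the singularity probability `q n` of the random symmetric `n × n` sign
matrix satisfies `q n ≥ n(n-1) 2^{-n} (1 - (n(n-1) - 2) 2^{-n})`. -/
theorem result (n : ℕ) (hn : 2 ≤ n) :
    ((n : ℚ) * (n - 1)) / 2 ^ n * (1 - ((n : ℚ) * (n - 1) - 2) / 2 ^ n) ≤ q n := by
  have hmain := main_count n
  set T := Fintype.card (Sym2 (Fin n)) with hT
  set S := (Finset.univ.filter fun w : Sym2 (Fin n) → Bool => (signMat w).det = 0) with hS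
  have h1 := card_Kset (⟨0, by omega⟩ : Fin n)
  have h2 := card_Kset2 (i := (⟨0, by omega⟩ : Fin n)) (l := (⟨1, by omega⟩ : Fin n))
    (by simp [Fin.ext_iff])
  rw [← hT] at h1 h2
  obtain ⟨k1, hk1⟩ : ∃ k1, T = k1 + n := ⟨T - n, by omega⟩
  obtain ⟨k2, hk2⟩ : ∃ k2, T + 1 = k2 + 2 * n := ⟨T + 1 - 2 * n, by omega⟩
  have e1 : T - n = k1 := by omega
  have e2 : T + 1 - 2 * n = k2 := by omega
  rw [e1, e2] at hmain
  have hn1 : 1 ≤ n := by omega
  have hn2 : 2 ≤ n * (n - 1) := by
    have : 1 ≤ n - 1 := by omega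
    nlinarith
  have hmainQ : (2 : ℚ) * ((n : ℚ) * (n - 1)) * 2 ^ k1 ≤
      2 * (S.card : ℚ) + ((n : ℚ) * (n - 1)) * ((n : ℚ) * (n - 1) - 2) * 2 ^ k2 := by
    have := (Nat.cast_le (α := ℚ)).2 hmain
    push_cast [Nat.cast_sub hn2, Nat.cast_sub hn1] at this
    exact this
  have hq : q n = (S.card : ℚ) / 2 ^ T := by
    simp [q, hS, hT]
  have hP : (0 : ℚ) < 2 ^ n := by positivity
  have hA : (0 : ℚ) < 2 ^ k2 := by positivity
  have e3 : (2 : ℚ) ^ T = 2 ^ k1 * 2 ^ n := by rw [hk1, pow_add]
  have e4 : 2 * (2 : ℚ) ^ T = 2 ^ k2 * 2 ^ n * 2 ^ n := by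
    have : (2 : ℚ) ^ (T + 1) = 2 ^ (k2 + 2 * n) := by rw [hk2]
    rw [pow_succ, pow_add, two_mul, pow_add] at this
    linarith
  have e5 : (2 : ℚ) ^ k1 = 2 ^ k2 * 2 ^ n / 2 := by
    have : (2 : ℚ) ^ k1 * 2 ^ n * 2 = 2 ^ k2 * 2 ^ n * 2 ^ n := by rw [← e3, ← e4]; ring
    have h3 : (2 : ℚ) ^ k1 * 2 = 2 ^ k2 * 2 ^ n := by
      have h4 : ((2 : ℚ) ^ k1 * 2) * 2 ^ n = (2 ^ k2 * 2 ^ n) * 2 ^ n := by linarith
      exact mul_right_cancel₀ (ne_of_gt hP) h4
    linarith
  have e6 : (2 : ℚ) ^ T = 2 ^ k2 * 2 ^ n * 2 ^ n / 2 := by linarith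
  rw [hq, e6]
  rw [e5] at hmainQ
  generalize (2 : ℚ) ^ n = P at *
  generalize (2 : ℚ) ^ k2 = A at *
  generalize (S.card : ℚ) = s at *
  generalize (n : ℚ) * (n - 1) = N at *
  rw [le_div_iff₀ (by positivity)]
  have : N / P * (1 - (N - 2) / P) * (A * P * P / 2) = (N * A * P - N * (N - 2) * A) / 2 := by
    field_simp
  rw [this]
  linarith

end final

end Vale.Agent.Results.P160.PairBound
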