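import Mathlib
import Vale.Agent.Results.P160.PairBound

/-!
# The singularity probability of symmetric sign matrices, in plain form

The same bound as `Vale.Agent.Results.P160.PairBound.result`, stated with Mathlib notions only:
the symmetric `n × n` matrices over the integers all of whose entries are `1` or `-1` are counted
directly.  There are `2 ^ (n (n + 1) / 2)` of them, and the proportion of those with determinant
zero is at least `n (n - 1) / 2 ^ n * (1 - (n (n - 1) - 2) / 2 ^ n)` for every `n ≥ 2`.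
-/

namespace Vale.Agent.Results.P160.SymmetricSignMatrices

open Vale.Agent.Results.P160.PairBound

theorem signMat_symm {n : ℕ} (w : Sym2 (Fin n) → Bool) : (signMat w).IsSymm := by
  ext i j
  simp [signMat, Matrix.transpose_apply, Sym2.eq_swap]

theorem signMat_entry {n : ℕ} (w : Sym2 (Fin n) → Bool) (i j : Fin n) :
    signMat w i j = 1 ∨ signMat w i j = -1 := by
  by_cases h : w s(i, j) <;> simp [signMat, h]

theorem signMat_injective {n : ℕ} :
    Function.Injective (signMat : (Sym2 (Fin n) → Bool) → Matrix (Fin n) (Fin n) ℤ) := by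
  intro w w' h
  funext x
  induction x using Sym2.ind with
  | _ i j =>
    have h1 := congrFun (congrFun h i) j
    simp only [signMat, Matrix.of_apply] at h1
    by_cases h2 : w s(i, j) <;> by_cases h3 : w' s(i, j) <;> simp_all

theorem signMat_surj {n : ℕ} (A : Matrix (Fin n) (Fin n) ℤ) (hs : A.IsSymm)
    (he : ∀ i j, A i j = 1 ∨ A i j = -1) : ∃ w, signMat w = A := by
  have hsym : ∀ i j, A i j = A j i := fun i j => by
    have h1 := congrFun (congrFun hs j) i
    simpa [Matrix.transpose_apply] using h1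
  refine ⟨Sym2.lift ⟨fun i j => decide (A i j = 1), ?_⟩, ?_⟩
  · intro i j
    simp [hsym i j]
  · ext i j
    simp only [signMat, Matrix.of_apply, Sym2.lift_mk]
    rcases he i j with h | h <;> simp [h]

theorem card_all (n : ℕ) :
    Nat.card {A : Matrix (Fin n) (Fin n) ℤ // A.IsSymm ∧ ∀ i j, A i j = 1 ∨ A i j = -1}
      = Fintype.card (Sym2 (Fin n) → Bool) := by
  rw [← Nat.card_eq_fintype_card]
  refine (Nat.card_eq_of_bijective
    (fun w : Sym2 (Fin n) → Bool =>
      (⟨signMat w, signMat_symm w, signMat_entry w⟩ :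
        {A : Matrix (Fin n) (Fin n) ℤ // A.IsSymm ∧ ∀ i j, A i j = 1 ∨ A i j = -1}))
    ⟨fun w w' h => signMat_injective (congrArg Subtype.val h), fun A => ?_⟩).symm
  obtain ⟨w, hw⟩ := signMat_surj A.1 A.2.1 A.2.2
  exact ⟨w, Subtype.ext hw⟩

theorem card_sing (n : ℕ) :
    Nat.card {A : Matrix (Fin n) (Fin n) ℤ //
        A.IsSymm ∧ (∀ i j, A i j = 1 ∨ A i j = -1) ∧ A.det = 0}
      = (Finset.univ.filter fun w : Sym2 (Fin n) → Bool => (signMat w).det = 0).card := by
  rw [← Fintype.card_subtype, ← Nat.card_eq_fintype_card]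
  refine (Nat.card_eq_of_bijective
    (fun w : {w : Sym2 (Fin n) → Bool // (signMat w).det = 0} =>
      (⟨signMat w.1, signMat_symm w.1, signMat_entry w.1, w.2⟩ :
        {A : Matrix (Fin n) (Fin n) ℤ //
          A.IsSymm ∧ (∀ i j, A i j = 1 ∨ A i j = -1) ∧ A.det = 0}))
    ⟨fun w w' h => Subtype.ext (signMat_injective (congrArg Subtype.val h)), fun A => ?_⟩).symm
  obtain ⟨w, hw⟩ := signMat_surj A.1 A.2.1 A.2.2.1
  exact ⟨⟨w, by rw [hw]; exact A.2.2.2⟩, Subtype.ext hw⟩

/-- **Symmetric sign matrices, plain form.**  For every `n ≥ 2`: there are exactly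
`2 ^ ((n + 1) choose 2)` symmetric `n × n` integer matrices with all entries `1` or `-1`, and the
proportion of them with determinant zero (the probability that a uniformly random symmetric sign
matrix is singular) is at least `n (n - 1) / 2 ^ n * (1 - (n (n - 1) - 2) / 2 ^ n)`. -/
theorem result (n : ℕ) (hn : 2 ≤ n) :
    Nat.card {A : Matrix (Fin n) (Fin n) ℤ // A.IsSymm ∧ ∀ i j, A i j = 1 ∨ A i j = -1}
        = 2 ^ (n + 1).choose 2 ∧
    ((n : ℚ) * (n - 1)) / 2 ^ n * (1 - ((n : ℚ) * (n - 1) - 2) / 2 ^ n) ≤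
      (Nat.card {A : Matrix (Fin n) (Fin n) ℤ //
          A.IsSymm ∧ (∀ i j, A i j = 1 ∨ A i j = -1) ∧ A.det = 0} : ℚ) /
        (Nat.card {A : Matrix (Fin n) (Fin n) ℤ //
          A.IsSymm ∧ ∀ i j, A i j = 1 ∨ A i j = -1} : ℚ) := by
  refine ⟨?_, ?_⟩
  · rw [card_all]
    simp [Sym2.card]
  · rw [card_all, card_sing]
    exact Vale.Agent.Results.P160.PairBound.result n hn

end Vale.Agent.Results.P160.SymmetricSignMatrices
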